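import Vale.Agent.P273.C1.All

/-!
(1) In the top degree `3g-3+n` the functionals that satisfy Pixton's relations form a space of
dimension at most one, for all `(g, n)`.
(2) In degree `1` and in degree `3g-4+n` they form a space of dimension at most the rank of the
second cohomology group, for all stable `(g, n)`.
(3) In each codimension `D`, completeness of Pixton's relations for all `(g, n)` follows from
finitely many cases, and also from one single case: one `Mbar_G` in one codimension.
(4) For each `K`, completeness of Pixton's relations for classes of dimension at most `K`, for all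
`(g, n)`, follows from the cases with `2g-2+n ≤ 2K+2`.
-/

noncomputable section
namespace Vale.Agent.Results.P273.EndDegreesOneInstance

open Vale.Agent.P273.Q Sum
open scoped Classical

/-- The rank of the second cohomology group of the moduli space of stable curves of genus `g` with
`n` marked points (Arbarello-Cornalba). Here `c` is the number of pairs `(h, A)` with `h ≤ g` and
`A` a subset of the marked points, where `(h, A)` is identified with `(g - h, A')`, `A'` the
complement. -/
def h2 (g n : ℕ) : ℕ :=
  let c := ((g + 1) * 2 ^ n + 1) / 2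
  if g = 0 then c - 1 - n.choose 2 else if g = 1 then c - n else if g = 2 then c else c + 1

/-- The restriction of the functional `s` to one vertex of a decorated graph: insert a decorated
graph with leg set `L`, genus `γ` and degree `e` into a larger graph with leg set `N`, in which `R`
is the set of the other vertices, with decorations `r`, and `T` the set of the other edges; a
half-edge of `T` and a leg in `N` either take the place of a leg `x : L` of the inserted graph or
are attached to some vertex in `R`, with some psi exponent. -/
def res {N L R T : Type} (γ e : ℕ) (s : Fn N) (r : R → ℕ × Multiset ℕ)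
    (u : (T × Bool) ⊕ N → L ⊕ R × ℕ) : Fn L :=
  fun V E a f =>
    let w := fun y => (u y).elim (fun x => (f (inr x)).map inl id) (Prod.map inr id)
    if Valid a f γ e then
      s (V ⊕ R) (E ⊕ T) (Sum.elim a r) (Sum.elim (fun y => y.1.elim
        (fun e => (f (inl (e, y.2))).map inl id) fun t => w (inl (t, y.2))) fun i => w (inr i))
    else 0

/-- `T g d L` stands for the space of functionals on the tautological group in degree `d` of the
moduli space of stable curves of genus `g` with leg set `L`. In (3) the hypotheses on `T` are, in
this order: the trivial relations hold; closed under linear combinations; under relabelling; under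
the duals of: gluing a fundamental class of genus `h`; forgetful pullback; restriction to the
divisor of rational tails with two legs; restriction along the map that attaches a fixed elliptic
curve. In (4), with `k` the dimension, they are: Pixton's relations hold; zero is in `T`; gluing (if
`2g-2+n > 2k+2` and `s` is a functional whose restrictions to all vertices of all decorated graphs
with at least one further edge are in `T` then some `t` in `T` agrees with `s` on all graphs with at
least one edge); completeness if `2g-2+n ≤ 2k+2`. -/
theorem result :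
    (∀ g d n (s t : Fn (Lg n)), d + 3 = 3 * g + n → Pix g d s → Pix g d t →
      s = (fun _ _ _ _ => 0) ∨ ∃ c : ℚ, t = fun V E a f => c * s V E a f) ∧
    ((∀ g d n, 2 < 2 * g + n → d = 1 ∨ d + 4 = 3 * g + n → ∀ (k : ℕ) (s : Fin k → Fn (Lg n)),
      (∀ i, Pix g d (s i)) → LinearIndependent ℚ s → k ≤ h2 g n ∧
        (k = h2 g n → ∀ t, Pix g d t → ∃ c : Fin k → ℚ, t = ∑ i, c i • s i))) ∧
    (∀ D, ∃ N, ∀ T : ℕ → ℕ → ∀ L, Fn L → Prop,
    (∀ g d L s, T g d L s → Tr g d s) →
    (∀ g d L s t c, T g d L s → T g d L t → T g d L fun V E a f => s V E a f + c * t V E a f) →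
    (∀ g d L M s i, i.Bijective → T g d L s →
      T g d M fun V E a f => s V E a fun y => f (y.map id i)) →
    (∀ g d L s h, 1 ≤ h → T (g + h) (d + 1) L s →
      T g d (Option L) fun V E a f => s (Option V) (Option E) (Option.elim' (h, 0) a) (tail f)) →
    (∀ g d L s, T g d (Option L) s → T g d L (pull g d s)) →
    (∀ g d L s, T g d (Option L) s → ∃ t, T g d (Option (Option L)) t ∧ pull g d t = s ∧
      ∀ V E a f, (f (inr none) = f (inr (some none)) → (f (inr none)).2 ≠ 0) → t V E a f = 0) →
    (∀ g d L s, T g d (Option L) s → (∀ V E a f, (f (inr none)).2 ≠ 0 → s V E a f = 0) →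
      ∃ t, T (g + 1) d L t ∧ ∀ V E a f, (∀ v, 0 ∉ (a v).2) → t V E a f =
        ∑ᶠ (v) (_ : (a v).1 ≠ 0), s V E (Function.update a v ((a v).1 - 1, (a v).2)) (ad f v 0)) →
    ((∀ g ≤ 3 * D * (D + 1) + 1, ∀ n ≤ N, ∀ s, Pix g D s → T g D (Lg n) s) ∨
      ∃ d ≥ N, ∃ G ≥ 2 ^ d * N, ∀ s, Pix G d s → T G d Empty s) →
    ∀ g n s, Pix g D s → T g D (Lg n) s) ∧
    ∀ (K : ℕ) (T : ℕ → ℕ → ∀ L, Fn L → Prop),
      (∀ g d L s, T g d L s → Pix g d s) →
      (∀ g d L, T g d L fun _ _ _ _ => 0) →
      (∀ g d k L s, Finite L → k ≤ K → k + d + 3 = 3 * g + Nat.card L →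
        2 * k + 5 ≤ 2 * g + Nat.card L → Tr g d s →
        (∀ (γ e : ℕ) (M R T' : Type) (r : R → ℕ × Multiset ℕ) (u : (T' × Bool) ⊕ L → M ⊕ R × ℕ),
          Finite M → Finite R → Finite T' → Nonempty T' → (∀ x, ∃! y, u y = inl x) →
          T γ e M (res γ e s r u)) →
        ∃ t, T g d L t ∧ ∀ V E a f, Nonempty E → t V E a f = s V E a f) →
      (∀ g d k L, Finite L → k ≤ K → k + d + 3 = 3 * g + Nat.card L →
        2 * g + Nat.card L ≤ 2 * k + 4 → ∀ s, Pix g d s → T g d L s) →
      ∀ g d k L, Finite L → k ≤ K → k + d + 3 = 3 * g + Nat.card L →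
        ∀ s, Pix g d s → T g d L s := by
  refine ⟨fun _ _ _ _ _ h h1 h2 => or_iff_not_imp_left.2 (Vale.Agent.P273.dual_top h h1 h2), ?_,
    Vale.Agent.P273.dual_main, Vale.Agent.P273.C1.redAll⟩
  rintro g d n h (rfl | h') k s hs hli
  · exact Vale.Agent.P273.C1.degree_one (Vale.Agent.P273.C1.degAll g) n h k s hs hli
  · exact Vale.Agent.P273.C1.codegAll g d n h' k s hs hli

end Vale.Agent.Results.P273.EndDegreesOneInstance
end
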